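import Vale.Agent.P300LK.Sys
import Vale.Agent.P277Z.Slc.Div
import Vale.Agent.P300L.Su

/-!
# P300L, block TWO: two embeddings attached to two disjoint hypersurfaces
-/

set_option linter.all false

open scoped Manifold ContDiff Topology Matrix ComplexOrder
open Set Filter Function
open Vale.Agent.P272.K Vale.Agent.P285.H281.FD Vale.Agent.P281Z
open Vale.Agent.P277Z.Slc (LEq IsDiv)
open Vale.Agent.P280Z.Gp (Lifts)
open Vale.Agent.P300L Vale.Agent.P300LH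

noncomputable section

namespace Vale.Agent.P300LK

variable {n N M : ℕ} {X : Type} [TopologicalSpace X] [ChartedSpace (Cm n) X]

/-- juxtaposition -/
def jx (N M : ℕ) : (Cm N × Cm M) ≃L[ℂ] Cm (N + M) :=
  ContinuousLinearEquiv.ofFinrankEq (by simp)

theorem ex_dot (φ : Cm N →ₗ[ℂ] ℂ) : ∃ t : Cm N, ∀ v, t ⬝ᵥ v = φ v :=
  ⟨fun i => φ (Pi.single i 1), fun v => by
    rw [LinearMap.pi_apply_eq_sum_univ φ v, dotProduct_comm]
    exact Finset.sum_congr rfl fun i _ => by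
      rw [smul_eq_mul, show (fun j => if i = j then (1 : ℂ) else 0) = Pi.single i 1 from
        funext fun j => by simp [Pi.single_apply, eq_comm]]⟩

theorem ex_jx (t : Cm N) (t' : Cm M) :
    ∃ u : Cm (N + M), ∀ v v', u ⬝ᵥ jx N M (v, v') = t ⬝ᵥ v + t' ⬝ᵥ v' := by
  obtain ⟨u, h⟩ := ex_dot (((dotProductBilin ℂ ℂ t).coprod (dotProductBilin ℂ ℂ t')).comp
    (jx N M).symm.toLinearEquiv.toLinearMap)
  exact ⟨u, fun v v' => by simpa using h (jx N M (v, v'))⟩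

theorem ex_ne {v : Cm N} (h : v ≠ 0) : ∃ t : Cm N, t ⬝ᵥ v ≠ 0 :=
  let ⟨i, k⟩ := Function.ne_iff.1 h
  ⟨Pi.single i 1, by simpa using k⟩

variable {κ : Type} {O : κ → Set X} {g g' G : κ → κ → X → ℂ} {s : κ → X → Cm N}
  {s' : κ → X → Cm M} {p q : κ → X → ℂ}

theorem imm_smul (h : Lifts n O s) {b : κ} {x : X} (a : x ∈ O b) {e : Chart n X} (he : At e x)
    (hp : AnalyticAt ℂ (fun z => p b (e.symm z)) (e x)) (ne : p b x ≠ 0) {ξ : Cm n} {c : ℂ}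
    (k : fderiv ℂ (fun z => p b (e.symm z) • s b (e.symm z)) (e x) ξ = c • p b x • s b x) :
    ξ = 0 := by
  rw [fderiv_fun_smul hp.differentiableAt (h.hol b x a e he).differentiableAt] at k
  simp only [ContinuousLinearMap.add_apply, ContinuousLinearMap.smul_apply,
    ContinuousLinearMap.smulRight_apply, e.left_inv he.2] at k
  refine h.imm b x a e he ξ (c - (p b x)⁻¹ * fderiv ℂ (fun z => p b (e.symm z)) (e x) ξ)
    (smul_right_injective _ ne ?_)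
  simp only [eq_sub_of_add_eq k, smul_smul, sub_smul, smul_sub, mul_inv_cancel_left₀ ne, mul_comm c]

theorem Sys.join (h : Sys n O g s) (h' : Sys n O g' s')
    (hp : ∀ b, ∀ x ∈ O b, ∀ e : Chart n X, At e x → AnalyticAt ℂ (fun z => p b (e.symm z)) (e x))
    (hq : ∀ b, ∀ x ∈ O b, ∀ e : Chart n X, At e x → AnalyticAt ℂ (fun z => q b (e.symm z)) (e x))
    (cp : ∀ b b' x, x ∈ O b → x ∈ O b' → p b x * g b b' x = G b b' x * p b' x)
    (cq : ∀ b b' x, x ∈ O b → x ∈ O b' → q b x * g' b b' x = G b b' x * q b' x)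
    (ne : ∀ b, ∀ x ∈ O b, p b x ≠ 0 ∨ q b x ≠ 0) :
    Sys n O G fun b x => jx N M (p b x • s b x, q b x • s' b x) := by
  have ch : ∀ b b' x, x ∈ O b → x ∈ O b' → jx N M (p b x • s b x, q b x • s' b x) =
      G b b' x • jx N M (p b' x • s b' x, q b' x • s' b' x) := fun b b' x a a' => by
    rw [← map_smul, Prod.smul_mk, h.chg b b' x a a', h'.chg b b' x a a']
    simp only [smul_smul, cp b b' x a a', cq b b' x a a']
  have an := fun b x a e he => ((hp b x a e he).smul (h.lf.hol b x a e he)).prod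
    ((hq b x a e he).smul (h'.lf.hol b x a e he))
  refine ⟨⟨h.lf.opn, h.lf.cov, fun b x a e he => ((jx N M).analyticAt _).comp (an b x a e he),
    fun b x a z => ?_, fun b b' x a a' => ⟨_, ch b b' x a a'⟩, fun b b' x x' a a' ⟨c, k⟩ => ?_,
    fun b x a e he ξ c k => ?_⟩, ch⟩
  · obtain ⟨k1, k2⟩ := Prod.ext_iff.1 ((jx N M).map_eq_zero_iff.1 z)
    exact (ne b x a).elim (fun y => smul_ne_zero y (h.lf.nz b x a) k1)
      fun y => smul_ne_zero y (h'.lf.nz b x a) k2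
  · rw [← map_smul] at k
    obtain ⟨k1, k2⟩ := Prod.ext_iff.1 ((jx N M).injective k)
    exact (ne b x a).elim (fun y => h.lf.inj b b' x x' a a' ⟨(p b x)⁻¹ * (c * p b' x'), by
      rw [mul_smul, mul_smul]; exact ((inv_smul_eq_iff₀ y).2 k1.symm).symm⟩)
      fun y => h'.lf.inj b b' x x' a a' ⟨(q b x)⁻¹ * (c * q b' x'), by
        rw [mul_smul, mul_smul]; exact ((inv_smul_eq_iff₀ y).2 k2.symm).symm⟩
  · have d1 := ((hp b x a e he).smul (h.lf.hol b x a e he)).differentiableAt.hasFDerivAt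
    have d2 := ((hq b x a e he).smul (h'.lf.hol b x a e he)).differentiableAt.hasFDerivAt
    rw [(show HasFDerivAt (fun z => jx N M (p b (e.symm z) • s b (e.symm z),
      q b (e.symm z) • s' b (e.symm z))) _ _ from
        (jx N M).hasFDerivAt.comp _ (d1.prodMk d2)).fderiv, ← map_smul] at k
    obtain ⟨k1, k2⟩ := Prod.ext_iff.1 ((jx N M).injective k)
    exact (ne b x a).elim (fun y => imm_smul h.lf a he (hp b x a e he) y k1)
      fun y => imm_smul h'.lf a he (hq b x a e he) y k2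

theorem zero_iff {G : Set X} {D : Bd X} {σ : D.ι → X → ℂ} (h : IsDiv n G D σ) {i : D.ι} {x : X}
    (a : x ∈ D.U i) : σ i x = 0 ↔ x ∈ G := (h.leq i x a).1.self_of_nhds

variable [IsManifold 𝓘(ℂ, Cm n) ω X] [T2Space X] [CompactSpace X]

theorem two_sys {H D : Bd X} {G E : Set X} {σ : D.ι → X → ℂ} (hH : IsLB n H) (hP : Pos n H)
    (hD : IsDiv n G D σ) (hE : ∀ x, ∃ ζ, LEq n E x ζ) (dj : Disjoint G E) :
    ∃ (κ : Type) (O : κ → Set X) (r : κ → D.ι) (a N₁ N₂ : ℕ) (s₁ : κ → X → Cm N₁)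
      (s₂ : κ → X → Cm N₂) (g : κ → κ → X → ℂ), 0 < a ∧ (∀ b, O b ⊆ D.U (r b)) ∧
      Sys n O (fun b b' x => g b b' x * D.g (r b) (r b') x ^ a) s₁ ∧ Sys n O g s₂ ∧
      (∀ b, ∀ x ∈ O b, ∃ (t₁ : Cm N₁) (t₂ : Cm N₂), t₁ ⬝ᵥ s₁ b x ≠ 0 ∧
        ∀ c, ∀ y ∈ E, y ∈ O c → t₁ ⬝ᵥ s₁ c y = σ (r c) y ^ a * (t₂ ⬝ᵥ s₂ c y)) ∧
      (∀ b, ∀ x ∈ O b, ∃ (t₁ : Cm N₁) (t₂ : Cm N₂), t₂ ⬝ᵥ s₂ b x ≠ 0 ∧
        ∀ c, ∀ y ∈ E, y ∈ O c → t₁ ⬝ᵥ s₁ c y = σ (r c) y ^ a * (t₂ ⬝ᵥ s₂ c y)) ∧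
      ∀ b, ∀ x ∈ O b, x ∉ E → ∃ t₁ : Cm N₁, t₁ ⬝ᵥ s₁ b x ≠ 0 ∧
        ∀ c, ∀ y ∈ E, y ∈ O c → t₁ ⬝ᵥ s₁ c y = 0 := by
  have := ChartedSpace.secondCountable_of_sigmaCompact (Cm n) X
  obtain ⟨F, ε, hF⟩ := P277Z.Slc.stDiv n X E hE
  obtain ⟨c1, p1⟩ := twist (lb_dual hD.lb) hH hP
  obtain ⟨c2, p2⟩ := twist (lb_dual hF.lb) hH hP
  obtain ⟨k0, h0, _, η, sη⟩ := kod hH hP
  obtain ⟨k1, h1, _, τ, sτ⟩ := kod (lb_mul (lb_dual hD.lb) (lb_pow hH c1)) p1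
  obtain ⟨k2, h2, _, ρ, sρ⟩ := kod (lb_mul (lb_dual hF.lb) (lb_pow hH c2)) p2
  have l := lb_mul hH (lb_mul hD.lb hF.lb)
  have sη' := sη.ref Prod.fst l.isOpen l.cover fun b x a => a.1
  obtain ⟨_, _, sτ⟩ := (sτ.ref (fun b : (H.mul (D.mul F)).ι => (b.2.1, b.1)) l.isOpen l.cover
    fun b x a => ⟨a.2.1, a.1⟩).pow (Nat.mul_pos h0 h2)
  obtain ⟨_, _, sρ⟩ := (sρ.ref (fun b : (H.mul (D.mul F)).ι => (b.2.2, b.1)) l.isOpen l.cover
    fun b x a => ⟨a.2.2, a.1⟩).pow (Nat.mul_pos h0 h1)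
  obtain ⟨N, τ, sτ⟩ := sτ.mul_pow sη' (c2 * k1 * k2)
  obtain ⟨M, ρ, sρ⟩ := sρ.mul_pow sη' (c1 * k1 * k2)
  have ha : 0 < k0 * k1 * k2 := by positivity
  have j := sτ.join sρ (p := fun b x => σ b.2.1 x ^ (k0 * k1 * k2))
    (q := fun b x => ε b.2.2 x ^ (k0 * k1 * k2))
    (fun b x a e he => (hD.sec.holo _ e x he a.2.1).analyticAt.pow _)
    (fun b x a e he => (hF.sec.holo _ e x he a.2.2).analyticAt.pow _)
    (G := fun b b' x => (((D.g b.2.1 b'.2.1 x)⁻¹ * H.g b.1 b'.1 x ^ c1) ^ k1) ^ (k0 * k2) *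
      (H.g b.1 b'.1 x ^ k0) ^ (c2 * k1 * k2) * D.g b.2.1 b'.2.1 x ^ (k0 * k1 * k2))
    (fun b b' x a a' => by
      rw [hD.sec.change _ _ x a.2.1 a'.2.1]
      show _ * ((((D.g b.2.1 b'.2.1 x)⁻¹ * H.g b.1 b'.1 x ^ c1) ^ k1) ^ (k0 * k2) * _) = _
      ring)
    (fun b b' x a a' => by
      have u := hD.lb.ne_zero _ _ x a.2.1 a'.2.1
      have v := hF.lb.ne_zero _ _ x a.2.2 a'.2.2
      rw [hF.sec.change _ _ x a.2.2 a'.2.2]
      show _ * ((((F.g b.2.2 b'.2.2 x)⁻¹ * H.g b.1 b'.1 x ^ c2) ^ k2) ^ (k0 * k1) * _) = _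
      simp only [mul_pow, inv_pow, ← pow_mul]
      field_simp
      ring)
    fun b x a => by
      by_cases m : x ∈ G
      · exact Or.inr (pow_ne_zero _ (mt (zero_iff hF a.2.2).1 (disjoint_left.1 dj m)))
      · exact Or.inl (pow_ne_zero _ (mt (zero_iff hD a.2.1).1 m))
  have z : ∀ c : (H.mul (D.mul F)).ι, ∀ y ∈ E, y ∈ (H.mul (D.mul F)).U c →
      ε c.2.2 y ^ (k0 * k1 * k2) = 0 := fun c y m a => by
    rw [(zero_iff hF a.2.2).2 m, zero_pow ha.ne']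
  have r3 : ∀ b, ∀ x ∈ (H.mul (D.mul F)).U b, x ∉ E → ∃ t₁ : Cm (N + M),
      t₁ ⬝ᵥ jx N M (σ b.2.1 x ^ (k0 * k1 * k2) • τ b x, ε b.2.2 x ^ (k0 * k1 * k2) • ρ b x) ≠ 0 ∧
      ∀ c, ∀ y ∈ E, y ∈ (H.mul (D.mul F)).U c → t₁ ⬝ᵥ jx N M
        (σ c.2.1 y ^ (k0 * k1 * k2) • τ c y, ε c.2.2 y ^ (k0 * k1 * k2) • ρ c y) = 0 :=
    fun b x a m => by
      obtain ⟨t, ht⟩ := ex_ne (smul_ne_zero (pow_ne_zero (k0 * k1 * k2)
        (mt (zero_iff hF a.2.2).1 m)) (sρ.lf.nz b x a))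
      obtain ⟨u, hu⟩ := ex_jx (0 : Cm N) t
      exact ⟨u, by rwa [hu, zero_dotProduct, zero_add], fun c y m a => by simp [hu, z c y m a]⟩
  refine ⟨_, _, fun b => b.2.1, _, _, _, _, τ, _, ha, fun b x a => a.2.1, j, sτ, fun b x a => ?_,
    fun b x a => ?_, r3⟩
  · by_cases m : x ∈ E
    · obtain ⟨t, ht⟩ := ex_ne (smul_ne_zero (pow_ne_zero (k0 * k1 * k2)
        (mt (zero_iff hD a.2.1).1 fun k => disjoint_left.1 dj k m)) (sτ.lf.nz b x a))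
      obtain ⟨u, hu⟩ := ex_jx t (0 : Cm M)
      exact ⟨u, t, by rwa [hu, zero_dotProduct, add_zero], fun c y m a => by simp [hu]⟩
    · obtain ⟨u, k1, k2⟩ := r3 b x a m
      exact ⟨u, 0, k1, fun c y m a => by rw [k2 c y m a, zero_dotProduct, mul_zero]⟩
  · obtain ⟨t, ht⟩ := ex_ne (sτ.lf.nz b x a)
    obtain ⟨u, hu⟩ := ex_jx t (0 : Cm M)
    exact ⟨u, t, ht, fun c y m a => by simp [hu]⟩

omit [TopologicalSpace X] [ChartedSpace (Cm n) X] [IsManifold 𝓘(ℂ, Cm n) ω X] [T2Space X]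
  [CompactSpace X] in
/-- **TWO** -/
theorem two : TWO := fun X H G E Od sg hH hP hD hE dj => by
  obtain ⟨κ, O, r, a, N₁, N₂, s₁, s₂, g, ha, sub, h1, h2, r1, r2, r3⟩ := two_sys hH hP hD hE dj
  exact ⟨⟨κ, O, N₁, N₂, s₁, s₂, h1.lf, h2.lf, a, ha, r, sub, fun b b' x k k' =>
    ⟨_, h1.chg b b' x k k', by rw [h2.chg b b' x k k', smul_smul, mul_comm]⟩, r1, r2, r3⟩⟩

end Vale.Agent.P300LK
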