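import Vale.Agent.P300LK.Wd
import Vale.Agent.P300LJ.Hs

/-!
# P300L, block PUSH: the theorem of Lefschetz for the join
-/

set_option linter.all false

open scoped Topology Matrix unitInterval
open Set Filter Function Metric Matrix
open Vale.Agent.P272.K (Cm Chart At)
open Vale.Agent.P281Z
open Vale.Agent.P277Z (at_chart)
open Vale.Agent.P300L Vale.Agent.P300LF Vale.Agent.P300LJ

noncomputable section

namespace Vale.Agent.P300LK

variable {n m K L : ℕ}

theorem hd_kr {A : Cm n → Cm K} {B : Cm n → Cm L} {z : Cm n} (hA : DifferentiableAt ℂ A z)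
    (hB : DifferentiableAt ℂ B z) (v : Cm n) : fderiv ℂ (fun z => kr (A z) (B z)) z v =
      kr (fderiv ℂ A z v) (B z) + kr (A z) (fderiv ℂ B z v) := by
  have k := hasFDerivAt_pi.2 fun i : Fin (K * L) =>
    (hasFDerivAt_pi'.1 hA.hasFDerivAt (finProdFinEquiv.symm i).1).mul
      (hasFDerivAt_pi'.1 hB.hasFDerivAt (finProdFinEquiv.symm i).2)
  rw [(show HasFDerivAt (fun z => kr (A z) (B z)) _ z from k).fderiv]
  funext i
  simp [kr]
  ring

variable {J : Jo n m} (h : J.Pre) {w : W J}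
include h

theorem cav (hn : m + 3 ≤ n) (r : 0 < rho h w) : Cav (rho h) w := by
  obtain ⟨b, hw⟩ := h.lo₁.cov w.s
  have he := at_chart (n := n) w.s
  set e := chartAt (Cm n) w.s
  have li : e.symm (e w.s) = w.s := e.left_inv he.2
  have A1 := h.lo₁.hol b _ hw e he
  have A2 := h.lo₂.hol b _ hw e he
  let f1 : Cm n × ℂ → _ := fun q => eu _ (J.a₁ b (e.symm q.1))
  let f2 : Cm n × ℂ → _ := fun q => eu _ (q.2 • J.a₂ b (e.symm q.1))
  let F : Cm n × ℂ → _ := fun q => eu m (J.p₁ (J.a₁ b (e.symm q.1)) - q.2 • J.p₂ (J.a₂ b (e.symm q.1)))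
  have B1 := A1.comp_of_eq (analyticAt_fst (p := (e w.s, w.t b))) rfl
  have B2 := A2.comp_of_eq (analyticAt_fst (p := (e w.s, w.t b))) rfl
  have a1 : AnalyticAt ℂ f1 (e w.s, w.t b) := ((eu _).analyticAt _).comp B1
  have a2 : AnalyticAt ℂ f2 (e w.s, w.t b) := ((eu _).analyticAt _).comp (analyticAt_snd.smul B2)
  have aF : AnalyticAt ℂ F (e w.s, w.t b) := ((eu _).analyticAt _).comp
    (((J.p₁.analyticAt _).comp B1).sub (analyticAt_snd.smul ((J.p₂.analyticAt _).comp B2)))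
  have z1 : f1 (e w.s, w.t b) ≠ 0 := eu_ne (li.symm ▸ h.lo₁.nz b _ hw)
  have z2 : f2 (e w.s, w.t b) ≠ 0 := eu_ne (li.symm ▸ smul_ne_zero (spec h hw).1 (h.lo₂.nz b _ hw))
  have zF : F (e w.s, w.t b) ≠ 0 := eu_ne (li.symm ▸ mt (rho_zero h hw).2 r.ne')
  let D := (fderiv ℂ F (e w.s, w.t b)).toLinearMap.comp (LinearMap.inl ℂ (Cm n) ℂ)
  obtain ⟨κ, hκ⟩ := finrank_le_iff_exists_linearMap.1
    (show Module.finrank ℂ (Fin 3 → ℂ) ≤ Module.finrank ℂ (LinearMap.ker D) by
      have a := D.finrank_range_add_finrank_ker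
      have b := (LinearMap.range D).finrank_le
      simp only [Module.finrank_fintype_fun_eq_card, Fintype.card_fin, finrank_euclideanSpace] at *
      omega)
  have c1 := (cd_lg aF zF).sub (contDiffAt_const.mul (cd_lg a1 z1) (f := fun _ => (1 / 2 : ℝ)))
  obtain ⟨i, hi⟩ := neg_of_lv (φ := fun q => (lg F q - 1 / 2 * lg f1 q) - 1 / 2 * lg f2 q)
    (z := (e w.s, w.t b)) ((LinearMap.inl ℂ (Cm n) ℂ).comp ((LinearMap.ker D).subtype.comp κ))
    fun u hu => by
      have ne : (κ u).1 ≠ 0 := fun z => hu (hκ ((Subtype.ext z).trans κ.map_zero.symm))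
      show Lv _ _ ((κ u).1, 0) < 0
      rw [lv_lin c1 (cd_lg a2 z2), lv_lin (cd_lg aF zF) (cd_lg a1 z1), lv_lg_zero aF zF (v := ((κ u).1, 0)) (κ u).2]
      have n1 := lv_lg_nonneg a1 z1 ((κ u).1, 0)
      have n2 := lv_lg_nonneg a2 z2 ((κ u).1, 0)
      by_contra k
      have m1 : ¬ 0 < Lv (lg f1) (e w.s, w.t b) ((κ u).1, 0) := fun _ => k (by linarith)
      have m2 : ¬ 0 < Lv (lg f2) (e w.s, w.t b) ((κ u).1, 0) := fun _ => k (by linarith)
      obtain ⟨c, hc⟩ := not_forall.1 (mt (lv_lg_pos a1 z1) m1)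
      obtain ⟨c', hc'⟩ := not_forall.1 (mt (lv_lg_pos a2 z2) m2)
      have d1 := HasFDerivAt.comp (f := Prod.fst) (e w.s, w.t b) A1.differentiableAt.hasFDerivAt
        hasFDerivAt_fst
      have d2 := HasFDerivAt.comp (f := Prod.fst) (e w.s, w.t b) A2.differentiableAt.hasFDerivAt
        hasFDerivAt_fst
      rw [not_ne_iff, (show HasFDerivAt f1 _ _ from (eu _).hasFDerivAt.comp _ d1).fderiv] at hc
      rw [not_ne_iff, (show HasFDerivAt f2 _ _ from
        (eu _).hasFDerivAt.comp _ (hasFDerivAt_snd.smul d2)).fderiv] at hc'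
      have e1 : fderiv ℂ (fun z => J.a₁ b (e.symm z)) (e w.s) (κ u).1 = c • J.a₁ b w.s :=
        (eu _).injective (by simpa [f1, li] using hc)
      have e2 : fderiv ℂ (fun z => J.a₂ b (e.symm z)) (e w.s) (κ u).1 = c' • J.a₂ b w.s :=
        (eu _).injective (smul_right_injective _ (spec h hw).1 (by
          simpa [f2, li, smul_comm c'] using hc'))
      refine ne (h.lf.imm b _ hw e he _ (c + c') ?_)
      rw [hd_kr A1.differentiableAt A2.differentiableAt, e1, e2, li]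
      funext i
      simp only [kr, Pi.add_apply, Pi.smul_apply, smul_eq_mul]
      ring
  refine ⟨Cm n × ℂ, inferInstance, inferInstance, inferInstance, ch h b e w, _, i, ⟨he.2, hw⟩,
    c1.sub (contDiffAt_const.mul (cd_lg a2 z2)), ?_, hi⟩
  filter_upwards [near h hw, cont_s.continuousAt.eventually (e.open_source.mem_nhds he.2),
    (cont_rho h).continuousAt.eventually (lt_mem_nhds r)] with v a a' r'
  have p1 := norm_pos_iff.2 (eu_ne (h.lo₁.nz b _ a))
  have p2 := norm_pos_iff.2 (eu_ne (smul_ne_zero (spec h a).1 (h.lo₂.nz b _ a)))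
  have p3 := norm_pos_iff.2 (eu_ne (mt (rho_zero h a).2 r'.ne'))
  show _ = Real.exp ((lg F (e v.s, v.t b) - 1 / 2 * lg f1 (e v.s, v.t b)) - 1 / 2 * lg f2 (e v.s, v.t b))
  simp only [lg, F, f1, f2, e.left_inv a', Real.log_pow, Nat.cast_ofNat]
  rw [← mul_assoc, ← mul_assoc, show (1 / 2 * 2 : ℝ) = 1 by norm_num, one_mul, one_mul, Real.exp_sub,
    Real.exp_sub, Real.exp_log p1, Real.exp_log p2, two_mul, Real.exp_add, Real.exp_log p3,
    rho_eq h a, Rq, map_smul, div_div, sq]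

theorem sub (g : J.Gen) (r : rho h w = 0) : Sub (rho h) w := by
  obtain ⟨b, hw⟩ := h.lo₁.cov w.s
  have he := at_chart (n := n) w.s
  set e := chartAt (Cm n) w.s
  have li : e.symm (e w.s) = w.s := e.left_inv he.2
  have d1 := HasStrictFDerivAt.comp (f := Prod.fst) (e w.s, w.t b)
    (h.lo₁.hol b _ hw e he).hasStrictFDerivAt hasStrictFDerivAt_fst
  have d2 := HasStrictFDerivAt.comp (f := Prod.fst) (e w.s, w.t b)
    (h.lo₂.hol b _ hw e he).hasStrictFDerivAt hasStrictFDerivAt_fst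
  have d := (J.p₁.hasStrictFDerivAt.comp _ d1).sub
    (hasStrictFDerivAt_snd.smul (J.p₂.hasStrictFDerivAt.comp _ d2))
  refine ⟨Cm n × ℂ, inferInstance, inferInstance, inferInstance, Cm m, inferInstance, inferInstance,
    inferInstance, ch h b e w, _, _, ⟨he.2, hw⟩, d.restrictScalars ℝ, fun y => ?_, ?_⟩
  · obtain ⟨q, hq⟩ := g.tv b _ hw _ e he (sub_eq_zero.1 ((rho_zero h hw).1 r)) y
    exact ⟨q, by rw [← hq]; simp [li, sub_sub]⟩
  · filter_upwards [near h hw, cont_s.continuousAt.eventually (e.open_source.mem_nhds he.2)]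
      with v a a'
    rw [rho_zero h a]
    show _ ↔ J.p₁ (J.a₁ b (e.symm (e v.s))) - v.t b • J.p₂ (J.a₂ b (e.symm (e v.s))) = 0
    rw [e.left_inv a']

theorem lf (hn : m + 3 ≤ n) (g : J.Gen) : Lf (rho h) :=
  ⟨inferInstance, cont_rho h, fun _ => by unfold rho Rq; positivity, cpt_rho h g,
    fun _ => cav h hn, fun _ => sub h g⟩

/-- a section along a map is a map to the join -/
theorem of_sec {Q : Type} [TopologicalSpace Q] {D : Q → J.S.X} (c : Continuous D)
    {τ : J.κ → Q → ℂ} (s : J.Sec D τ) :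
    ∃ E : C(Q, W J), ∀ x, (E x).s = D x ∧ ∀ b, D x ∈ J.O b → (E x).t b = τ b x := by
  choose β hβ using fun x => h.lo₁.cov (D x)
  have k : ∀ x b, D x ∈ J.O b → op (J.a₁ (β x) (D x)) (τ (β x) x • J.a₂ (β x) (D x)) =
      op (J.a₁ b (D x)) (τ b x • J.a₂ b (D x)) := fun x b a =>
    same_op (s.chg _ _ x (hβ x) a) (h.lo₁.nz _ _ (hβ x))
  refine ⟨⟨fun x => mk (β x) (D x) (τ (β x) x) (hβ x) (s.ne _ _ (hβ x)),
    continuous_induced_rng.2 (c.prodMk (continuous_iff_continuousAt.2 fun x => ?_))⟩,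
    fun x => ⟨rfl, fun b a => t_of h a (k x b a)⟩⟩
  have n := ((h.lo₁.opn (β x)).preimage c).mem_nhds (hβ x)
  refine ContinuousAt.congr ?_ (eventually_of_mem n fun y a => (k y _ a).symm)
  exact continuousWithinAt_univ _ _ |>.1 (op_cont
    ((Lo.cont h.lo₁ (hβ x)).comp c.continuousAt).continuousWithinAt
    (((s.cont _).continuousAt n).smul ((Lo.cont h.lo₂ (hβ x)).comp c.continuousAt)).continuousWithinAt
    (h.lo₁.nz _ _ (hβ x)))

omit h in
/-- **PUSH** -/
theorem push : PUSH := fun n m J hn h g D τ s => by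
  obtain ⟨E, hE⟩ := of_sec h D.continuous s
  obtain ⟨E', a, b⟩ := (lf h hn g).push E
  refine ⟨⟨fun x => (E' x).s, cont_s.comp E'.continuous⟩,
    fun x c k => ⟨_, sub_eq_zero.1 ((rho_zero h k).1 (a x))⟩, fun x o => ?_⟩
  obtain ⟨c, k⟩ := h.lo₁.cov (D x)
  have z : rho h (E x) = 0 := by
    rw [rho_zero h ((hE x).1.symm ▸ k), (hE x).1, (hE x).2 c k, o c k, sub_self]
  exact (congrArg W.s (b x z)).trans (hE x).1

end Vale.Agent.P300LK
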