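import Vale.Agent.P300L.Jo
import Vale.Agent.P300LF.Lef

/-!
# P300L, block PUSH: the open join
-/

set_option linter.all false

open scoped Topology Matrix ComplexOrder
open Set Filter Function Metric Matrix
open Vale.Agent.P272.K (Cm Chart At)
open Vale.Agent.P281Z
open Vale.Agent.P300LZ (Same)
open Vale.Agent.P300L

noncomputable section

namespace Vale.Agent.P300LK

variable {n m K L : ℕ}

/-- the euclidean structure -/
def eu (k : ℕ) : Cm k ≃L[ℂ] EuclideanSpace ℂ (Fin k) := (EuclideanSpace.equiv (Fin k) ℂ).symm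

theorem eu_ne {v : Cm K} (h : v ≠ 0) : eu K v ≠ 0 := (eu K).map_ne_zero_iff.2 h

/-- the operator of rank one which maps `y` to `y'` -/
def op (y : Cm K) (y' : Cm L) : Matrix (Fin L) (Fin K) ℂ := (star y ⬝ᵥ y)⁻¹ • vecMulVec y' (star y)

theorem sq_ne {y : Cm K} (h : y ≠ 0) : star y ⬝ᵥ y ≠ 0 := mt dotProduct_star_self_eq_zero.1 h

theorem op_mv {y : Cm K} (h : y ≠ 0) (y' : Cm L) : op y y' *ᵥ y = y' := by
  rw [op, smul_mulVec, vecMulVec_mulVec, op_smul_eq_smul, smul_smul, inv_mul_cancel₀ (sq_ne h),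
    one_smul]

theorem op_smul (y : Cm K) (y' : Cm L) (c : ℂ) : op y (c • y') = c • op y y' := by
  rw [op, op, smul_vecMulVec, smul_comm]

theorem op_scl (y : Cm K) (y' : Cm L) {c : ℂ} (h : c ≠ 0) : op (c • y) (c • y') = op y y' := by
  have h' : star c ≠ 0 := star_ne_zero.2 h
  rw [op, op, star_smul, smul_dotProduct, dotProduct_smul, smul_vecMulVec, vecMulVec_smul,
    smul_smul, smul_smul, smul_eq_mul, smul_eq_mul]
  congr 1
  field_simp

theorem op_cont {X : Type} [TopologicalSpace X] {y : X → Cm K} {y' : X → Cm L} {x : X} {S : Set X}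
    (h : ContinuousWithinAt y S x) (h' : ContinuousWithinAt y' S x) (z : y x ≠ 0) :
    ContinuousWithinAt (fun x => op (y x) (y' x)) S x :=
  have a : Continuous fun q : Cm K × Cm L => star q.1 ⬝ᵥ q.1 :=
    continuous_fst.star.dotProduct continuous_fst
  have b : Continuous fun q : Cm K × Cm L => vecMulVec q.2 (star q.1) :=
    continuous_snd.matrix_vecMulVec continuous_fst.star
  ((a.continuousAt.comp_continuousWithinAt (h.prodMk h')).inv₀ (sq_ne z)).smul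
    (b.continuousAt.comp_continuousWithinAt (h.prodMk h'))

theorem same_op {y z : Cm K} {y' z' : Cm L} (h : Same y z y' z') (n : y ≠ 0) : op y y' = op z z' := by
  obtain ⟨c, rfl, rfl⟩ := h
  exact op_scl _ _ (left_ne_zero_of_smul n)

variable (J : Jo n m)

/-- the open join -/
abbrev W : Type := {w : J.S.X × Matrix (Fin J.K₂) (Fin J.K₁) ℂ //
  ∃ (b : J.κ) (t : ℂ), w.1 ∈ J.O b ∧ t ≠ 0 ∧ w.2 = op (J.a₁ b w.1) (t • J.a₂ b w.1)}

/-- the quotient which measures the distance to the zero set -/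
def Rq (y : Cm J.K₁) (y' : Cm J.K₂) : ℝ :=
  ‖eu m (J.p₁ y - J.p₂ y')‖ ^ 2 / (‖eu _ y‖ * ‖eu _ y'‖)

variable {J}

theorem Rq_scl (y : Cm J.K₁) (y' : Cm J.K₂) {c : ℂ} (h : c ≠ 0) :
    Rq J (c • y) (c • y') = Rq J y y' := by
  have := norm_ne_zero_iff.2 h
  simp only [Rq, map_smul, ← smul_sub, norm_smul]
  rw [mul_pow, mul_mul_mul_comm, ← sq, mul_div_mul_left _ _ (pow_ne_zero 2 this)]

/-- the base point -/
def W.s (w : W J) : J.S.X := w.1.1

/-- the fibre coordinate -/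
def W.t (w : W J) (b : J.κ) : ℂ :=
  (star (J.a₂ b w.s) ⬝ᵥ J.a₂ b w.s)⁻¹ * (star (J.a₂ b w.s) ⬝ᵥ w.1.2 *ᵥ J.a₁ b w.s)

/-- the point with given coordinates -/
def mk (b : J.κ) (s : J.S.X) (t : ℂ) (hs : s ∈ J.O b) (ht : t ≠ 0) : W J :=
  ⟨(s, op (J.a₁ b s) (t • J.a₂ b s)), b, t, hs, ht, rfl⟩

theorem cont_s : Continuous (W.s : W J → _) := continuous_fst.comp continuous_subtype_val

theorem cont_T : Continuous fun w : W J => w.1.2 := continuous_snd.comp continuous_subtype_val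

theorem Lo.cont {κ : Type} {O : κ → Set J.S.X} {a : κ → J.S.X → Cm K} (h : Lo n O a) {b : κ}
    {s : J.S.X} (hs : s ∈ O b) : ContinuousAt (a b) s := AnV.cont (h.hol b s hs)

variable (h : J.Pre) {b : J.κ} {w : W J}
include h

theorem t_of (hw : w.s ∈ J.O b) {t : ℂ} (e : w.1.2 = op (J.a₁ b w.s) (t • J.a₂ b w.s)) :
    w.t b = t := by
  rw [W.t, e, op_mv (h.lo₁.nz b _ hw), dotProduct_smul, smul_eq_mul, mul_left_comm,
    inv_mul_cancel₀ (sq_ne (h.lo₂.nz b _ hw)), mul_one]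

theorem t_mk {s : J.S.X} {t : ℂ} (hs : s ∈ J.O b) (ht : t ≠ 0) : (mk b s t hs ht).t b = t :=
  t_of h hs rfl

theorem spec (hw : w.s ∈ J.O b) :
    w.t b ≠ 0 ∧ w.1.2 = op (J.a₁ b w.s) (w.t b • J.a₂ b w.s) := by
  obtain ⟨b', t, h1, h2, h3⟩ := w.2
  obtain ⟨c, e⟩ := h.lo₁.chg b' b w.s h1 hw
  obtain ⟨c', e'⟩ := h.lo₂.chg b' b w.s h1 hw
  have c0 : c ≠ 0 := left_ne_zero_of_smul (e ▸ h.lo₁.nz b' _ h1)
  have c1 : c' ≠ 0 := left_ne_zero_of_smul (e' ▸ h.lo₂.nz b' _ h1)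
  have k : w.1.2 = op (J.a₁ b w.s) ((t * c' / c) • J.a₂ b w.s) :=
    h3.trans (same_op ⟨c, e, by
      rw [show J.a₂ b' w.1.1 = _ from e', smul_smul, smul_smul]; congr 1; field_simp⟩
      (h.lo₁.nz b' _ h1))
  rw [t_of h hw k]
  exact ⟨div_ne_zero (mul_ne_zero h2 c1) c0, k⟩

theorem mk_t (hw : w.s ∈ J.O b) : mk b w.s (w.t b) hw (spec h hw).1 = w :=
  Subtype.ext (Prod.ext rfl (spec h hw).2.symm)

theorem cont_t (hw : w.s ∈ J.O b) : ContinuousAt (fun w : W J => w.t b) w := by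
  have a1 : ContinuousAt (fun w : W J => J.a₁ b w.s) w := (Lo.cont h.lo₁ hw).comp cont_s.continuousAt
  have a2 : ContinuousAt (fun w : W J => J.a₂ b w.s) w := (Lo.cont h.lo₂ hw).comp cont_s.continuousAt
  have a : Continuous fun q : Cm J.K₂ × Cm J.K₂ => star q.1 ⬝ᵥ q.2 :=
    continuous_fst.star.dotProduct continuous_snd
  have c : Continuous fun q : Matrix (Fin J.K₂) (Fin J.K₁) ℂ × Cm J.K₁ => q.1 *ᵥ q.2 :=
    continuous_fst.matrix_mulVec continuous_snd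
  have a3 : ContinuousAt (fun w : W J => w.1.2 *ᵥ J.a₁ b w.s) w :=
    c.continuousAt.comp (f := fun w : W J => (w.1.2, J.a₁ b w.s)) (cont_T.continuousAt.prodMk a1)
  have a4 : ContinuousAt (fun w : W J => star (J.a₂ b w.s) ⬝ᵥ J.a₂ b w.s) w :=
    a.continuousAt.comp (f := fun w : W J => (J.a₂ b w.s, J.a₂ b w.s)) (a2.prodMk a2)
  have a5 : ContinuousAt (fun w : W J => star (J.a₂ b w.s) ⬝ᵥ w.1.2 *ᵥ J.a₁ b w.s) w :=
    a.continuousAt.comp (f := fun w : W J => (J.a₂ b w.s, w.1.2 *ᵥ J.a₁ b w.s)) (a2.prodMk a3)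
  exact (a4.inv₀ (sq_ne (h.lo₂.nz b _ hw))).mul a5

/-- the exhaustion -/
def rho (w : W J) : ℝ :=
  Rq J (J.a₁ (h.lo₁.cov w.s).choose w.s) (w.1.2 *ᵥ J.a₁ (h.lo₁.cov w.s).choose w.s)

theorem rho_eq (hw : w.s ∈ J.O b) : rho h w = Rq J (J.a₁ b w.s) (w.t b • J.a₂ b w.s) := by
  have k := (h.lo₁.cov w.s).choose_spec
  obtain ⟨c, e⟩ := h.lo₁.chg _ b w.s k hw
  rw [rho, e, mulVec_smul, Rq_scl _ _ (left_ne_zero_of_smul (e ▸ h.lo₁.nz _ _ k)), (spec h hw).2,
    op_mv (h.lo₁.nz b _ hw)]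

theorem den_pos (hw : w.s ∈ J.O b) :
    0 < ‖eu _ (J.a₁ b w.s)‖ * ‖eu _ (w.t b • J.a₂ b w.s)‖ :=
  mul_pos (norm_pos_iff.2 (eu_ne (h.lo₁.nz b _ hw)))
    (norm_pos_iff.2 (eu_ne (smul_ne_zero (spec h hw).1 (h.lo₂.nz b _ hw))))

theorem rho_zero (hw : w.s ∈ J.O b) :
    rho h w = 0 ↔ J.p₁ (J.a₁ b w.s) - w.t b • J.p₂ (J.a₂ b w.s) = 0 := by
  rw [rho_eq h hw, Rq, div_eq_zero_iff, or_iff_left (den_pos h hw).ne', pow_eq_zero_iff two_ne_zero,
    norm_eq_zero, (eu m).map_eq_zero_iff, map_smul]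

theorem near (hw : w.s ∈ J.O b) : ∀ᶠ w' : W J in 𝓝 w, w'.s ∈ J.O b :=
  cont_s.continuousAt.eventually ((h.lo₁.opn b).mem_nhds hw)

theorem cont_rho : Continuous (rho h) := continuous_iff_continuousAt.2 fun w => by
  obtain ⟨b, hw⟩ := h.lo₁.cov w.s
  have a1 := (Lo.cont h.lo₁ hw).comp cont_s.continuousAt
  have a2 := (cont_t h hw).smul ((Lo.cont h.lo₂ hw).comp cont_s.continuousAt)
  refine ContinuousAt.congr ?_ ((near h hw).mono fun w' a => (rho_eq h a).symm)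
  exact (((eu m).continuous.continuousAt.comp ((J.p₁.continuous.continuousAt.comp a1).sub
    (J.p₂.continuous.continuousAt.comp a2))).norm.pow 2).div
    (((eu _).continuous.continuousAt.comp a1).norm.mul
      ((eu _).continuous.continuousAt.comp a2).norm) (den_pos h hw).ne'

theorem cpt_loc (g : J.Gen) {K : Set J.S.X} (hK : IsCompact K) (sK : K ⊆ J.O b) (c : ℝ) :
    IsCompact {w : W J | w.s ∈ K ∧ rho h w ≤ c} := by
  let P : Set (J.S.X × ℂ × ℂ) := (K ×ˢ sphere 0 1) ∩ (fun q =>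
    ‖eu m (J.p₁ (q.2.1 • J.a₁ b q.1) - J.p₂ (q.2.2 • J.a₂ b q.1))‖ ^ 2 -
      c * (‖eu _ (q.2.1 • J.a₁ b q.1)‖ * ‖eu _ (q.2.2 • J.a₂ b q.1)‖)) ⁻¹' Iic 0
  have c1 : ContinuousOn (fun q : J.S.X × ℂ × ℂ => q.2.1 • J.a₁ b q.1) (K ×ˢ sphere 0 1) :=
    fun q a => (continuousAt_snd.fst.smul
      ((Lo.cont h.lo₁ (sK a.1)).comp continuousAt_fst)).continuousWithinAt
  have c2 : ContinuousOn (fun q : J.S.X × ℂ × ℂ => q.2.2 • J.a₂ b q.1) (K ×ˢ sphere 0 1) :=
    fun q a => (continuousAt_snd.snd.smul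
      ((Lo.cont h.lo₂ (sK a.1)).comp continuousAt_fst)).continuousWithinAt
  have c0 := hK.prod (isCompact_sphere (0 : ℂ × ℂ) 1)
  have cP : IsCompact P := c0.of_isClosed_subset (ContinuousOn.preimage_isClosed_of_isClosed
    (((((eu m).continuous.comp_continuousOn ((J.p₁.continuous.comp_continuousOn c1).sub
      (J.p₂.continuous.comp_continuousOn c2))).norm).pow 2).sub (continuousOn_const.mul
      (((eu _).continuous.comp_continuousOn c1).norm.mul
        ((eu _).continuous.comp_continuousOn c2).norm))) c0.isClosed isClosed_Iic) inter_subset_left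
  have ne : ∀ q ∈ P, q.2.1 ≠ 0 ∧ q.2.2 ≠ 0 := fun ⟨s, α, β⟩ ⟨⟨a, a'⟩, k⟩ => by
    have z : (α, β) ≠ 0 := fun z => by simp [z] at a'
    constructor <;> rintro (rfl : _ = (0 : ℂ))
    · simpa [g.nz₂ b s (sK a), show β ≠ 0 from fun y => z (by simp [y])] using k
    · simpa [g.nz₁ b s (sK a), show α ≠ 0 from fun y => z (by simp [y])] using k
  have r : ∀ q ∈ P, Rq J (q.2.1 • J.a₁ b q.1) (q.2.2 • J.a₂ b q.1) ≤ c := fun q a =>
    (div_le_iff₀ (mul_pos (norm_pos_iff.2 (eu_ne (smul_ne_zero (ne q a).1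
      (h.lo₁.nz b _ (sK a.1.1))))) (norm_pos_iff.2 (eu_ne (smul_ne_zero (ne q a).2
      (h.lo₂.nz b _ (sK a.1.1))))))).2 (sub_nonpos.1 a.2)
  rw [Topology.IsEmbedding.subtypeVal.isCompact_iff]
  have e : Subtype.val '' {w : W J | w.s ∈ K ∧ rho h w ≤ c} =
      (fun q => (q.1, op (q.2.1 • J.a₁ b q.1) (q.2.2 • J.a₂ b q.1))) '' P := by
    refine Subset.antisymm ?_ ?_
    · rintro _ ⟨w : W J, ⟨a, k⟩, rfl⟩
      have z : ‖((1 : ℂ), w.t b)‖ ≠ 0 := norm_ne_zero_iff.2 (by simp)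
      have z' : ((‖((1 : ℂ), w.t b)‖⁻¹ : ℝ) : ℂ) ≠ 0 := Complex.ofReal_ne_zero.2 (inv_ne_zero z)
      refine ⟨(w.s, ((‖((1 : ℂ), w.t b)‖⁻¹ : ℝ) : ℂ) • (1, w.t b)), ⟨⟨a, ?_⟩, ?_⟩, ?_⟩
      · rw [mem_sphere_zero_iff_norm, norm_smul, Complex.norm_real, norm_inv, norm_norm,
          inv_mul_cancel₀ z]
      · rw [rho_eq h (sK a), ← Rq_scl _ _ z', Rq, div_le_iff₀] at k
        · simpa only [mem_preimage, mem_Iic, sub_nonpos, Prod.smul_mk, smul_eq_mul, mul_one,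
            mul_smul] using k
        · simp only [map_smul (eu _) (((‖((1 : ℂ), w.t b)‖⁻¹ : ℝ) : ℂ)), norm_smul, mul_mul_mul_comm]
          have := den_pos h (sK a)
          have := norm_pos_iff.2 z'
          positivity
      · refine Prod.ext rfl ?_
        simp only [Prod.smul_mk, smul_eq_mul, mul_one, mul_smul]
        exact (op_scl _ _ z').trans (spec h (sK a)).2.symm
    · rintro _ ⟨q, a, rfl⟩
      have e : q.2.2 • J.a₂ b q.1 = q.2.1 • (q.2.2 / q.2.1) • J.a₂ b q.1 := by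
        rw [smul_smul, mul_div_cancel₀ _ (ne q a).1]
      refine ⟨mk b q.1 _ (sK a.1.1) (div_ne_zero (ne q a).2 (ne q a).1), ⟨a.1.1, ?_⟩,
        Prod.ext rfl ?_⟩
      · rw [rho_eq h (b := b) (by exact sK a.1.1), t_mk h, ← Rq_scl _ _ (ne q a).1]
        exact e ▸ r q a
      · exact ((congrArg _ e).trans (op_scl _ _ (ne q a).1)).symm
  rw [e]
  exact cP.image_of_continuousOn (continuousOn_fst.prodMk fun q a => op_cont
    ((c1 q a.1).mono inter_subset_left) ((c2 q a.1).mono inter_subset_left)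
    (smul_ne_zero (ne q a).1 (h.lo₁.nz b _ (sK a.1.1))))

theorem cpt_rho (g : J.Gen) (c : ℝ) : IsCompact {w | rho h w ≤ c} := by
  have := ChartedSpace.locallyCompactSpace (Cm n) J.S.X
  suffices k : IsCompact {w : W J | w.s ∈ univ ∧ rho h w ≤ c} by simpa using k
  refine isCompact_univ.induction_on (p := fun A => ∃ K, IsClosed K ∧ A ⊆ K ∧
    IsCompact {w : W J | w.s ∈ K ∧ rho h w ≤ c}) ⟨∅, isClosed_empty, Subset.rfl, by simp⟩
    (fun _ _ s ⟨K, a, b, c⟩ => ⟨K, a, s.trans b, c⟩)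
    (fun _ _ ⟨K, a, b, c⟩ ⟨K', a', b', c'⟩ => ⟨K ∪ K', a.union a', union_subset_union b b', by
      simpa only [mem_union, or_and_right, setOf_or] using c.union c'⟩) (fun s _ => ?_) |>.elim
    fun K k => univ_subset_iff.1 k.2.1 ▸ k.2.2
  obtain ⟨b, hs⟩ := h.lo₁.cov s
  obtain ⟨K, k1, k2, k3⟩ := local_compact_nhds ((h.lo₁.opn b).mem_nhds hs)
  exact ⟨K, mem_nhdsWithin_of_mem_nhds k1, K, k3.isClosed, Subset.rfl, cpt_loc h g k3 k2 c⟩

/-- the chart of the join -/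
def ch (b : J.κ) (e : Chart n J.S.X) (p : W J) : OpenPartialHomeomorph (W J) (Cm n × ℂ) where
  toFun w := (e w.s, w.t b)
  invFun q := by
    classical exact if k : e.symm q.1 ∈ J.O b ∧ q.2 ≠ 0 then mk b _ q.2 k.1 k.2 else p
  source := {w | w.s ∈ e.source ∧ w.s ∈ J.O b}
  target := {q | q.1 ∈ e.target ∧ e.symm q.1 ∈ J.O b ∧ q.2 ≠ 0}
  map_source' w a := ⟨e.map_source a.1, (e.left_inv a.1).symm ▸ a.2, (spec h a.2).1⟩
  map_target' q a := by
    rw [dif_pos a.2]; exact ⟨e.map_target a.1, a.2.1⟩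
  left_inv' w a := by
    rw [dif_pos ⟨(e.left_inv a.1).symm ▸ a.2, (spec h a.2).1⟩]
    simp only [e.left_inv a.1]
    exact mk_t h a.2
  right_inv' q a := by
    rw [dif_pos a.2]; exact Prod.ext (e.right_inv a.1) (t_mk h _ _)
  open_source := (e.open_source.inter (h.lo₁.opn b)).preimage cont_s
  open_target := by
    simp only [← and_assoc, setOf_and]
    exact ((e.symm.isOpen_inter_preimage (h.lo₁.opn b)).preimage continuous_fst).inter
      (isOpen_ne.preimage continuous_snd)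
  continuousOn_toFun w a := (((e.continuousAt a.1).comp cont_s.continuousAt).prodMk
    (cont_t h a.2)).continuousWithinAt
  continuousOn_invFun := by
    refine (Topology.IsInducing.subtypeVal.continuousOn_iff).2 (ContinuousOn.congr
      (f := fun q => (e.symm q.1, op (J.a₁ b (e.symm q.1)) (q.2 • J.a₂ b (e.symm q.1))))
      (fun q a => ?_) fun q a => by simp only [Function.comp, dif_pos a.2]; rfl)
    have c := (e.continuousAt_symm a.1).comp (continuousAt_fst (p := q))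
    exact c.continuousWithinAt.prodMk (op_cont ((Lo.cont h.lo₁ a.2.1).comp_of_eq c rfl).continuousWithinAt
      (continuousAt_snd.smul ((Lo.cont h.lo₂ a.2.1).comp_of_eq c rfl)).continuousWithinAt
      (h.lo₁.nz b _ a.2.1))

end Vale.Agent.P300LK
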